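import Vale.Agent.P287D.Api.All

/-!
# P283R: a member of a linear system through all log canonical places
-/

set_option linter.all false

open Set

noncomputable section

namespace Vale.Agent.P283R.Iz

open Vale.Agent.P287D

variable {n : ℕ} {K : Type} [Field K] [Algebra ℂ K]

/-- a member which is positive at all places which are not klt -/
theorem sec0 (hK : FF K n) {b : BD K} (hb : b ∈ Car K) :
    ∃ (w' : Finset K) (w : K), Nz w' ∧ w ≠ 0 ∧ 0 ≤ dv w + mx w' ∧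
      ∀ Q, dsc n b Q ≤ -1 → 1 ≤ (dv w + mx w') Q := by
  classical
  obtain _ | n := n
  · exact ⟨{1}, 1, ⟨1, by simp, one_ne_zero⟩, one_ne_zero, fun Q => (Bm.no_pl hK Q).elim,
      fun Q => (Bm.no_pl hK Q).elim⟩
  obtain ⟨s, k, T, h, l, -, s1, s2⟩ := exists_ls hK finite_empty (finite_singleton b)
    (singleton_subset_iff.2 hb)
  obtain ⟨a, c, a0, ⟨w, w1, w0⟩, e⟩ := mem_CarZ.1 (sum_mem fun P (_ : P ∈ T) => l.hz P)
  have nn : ∀ P ∈ T, ∀ Q, 0 ≤ h P Q := fun P hP => l.nn (l.on P hP)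
  have le : ∀ Q, ∑ P ∈ T, h P Q ≤ (dv w + mx a) Q := fun Q => by
    have e1 := congrFun e Q
    have e2 : ((-Q.ord w : ℤ) : ℝ) ≤ Q.mz c := Int.cast_le.2 (Q.le_mz w1 w0)
    rw [Finset.sum_apply, Pi.sub_apply, mx_apply (s := c)] at e1
    rw [Pi.add_apply, dv_apply]
    push_cast at e2
    linarith
  refine ⟨a, w, a0, w0, fun Q => (Finset.sum_nonneg fun P hP => nn P hP Q).trans (le Q),
    fun Q hQ => ?_⟩
  obtain ⟨P, p1, p2⟩ : ∃ P ∈ T, 0 < h P Q := by
    by_contra! z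
    have := l.gt (Q := Q) (s1.sub (s2 b rfl)) le_rfl zero_lt_one
      fun P hP c => absurd c (z P hP).not_gt
    linarith
  exact (l.one_le p2).trans ((Finset.single_le_sum (fun P hP => nn P hP Q) p1).trans (le Q))

/-- **SEC**: a member through all log canonical places -/
theorem sec (hK : FF K n) {b : BD K} (hb : b ∈ Car K) (h : ∀ Q, -1 ≤ dsc n b Q) :
    ∃ (w' : Finset K) (w : K), Nz w' ∧ w ≠ 0 ∧ Sec (mx w') w ∧ ∃ e₀ : ℝ, 0 < e₀ ∧
      ∀ e : ℝ, 0 < e → e ≤ e₀ → ∀ Q, -1 < dsc n b Q + e * (dv w + mx w') Q := by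
  obtain ⟨w', w, a, c, d, k⟩ := sec0 hK hb
  refine ⟨w', w, a, c, Or.inr d, 1, one_pos, fun e e0 _ Q => ?_⟩
  rcases (h Q).eq_or_lt with z | z
  · have := mul_le_mul_of_nonneg_left (k Q z.ge) e0.le
    linarith
  · have := mul_nonneg e0.le (d Q : (0 : ℝ) ≤ _)
    linarith

end Vale.Agent.P283R.Iz
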