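import Vale.Agent.P283R.H.Qz
import Vale.Agent.P283R.Tp.St

/-!
# P283R: the orders along two prime divisors which meet on a smooth model
-/

set_option linter.all false

open Set
open Vale.Agent.P297Z.Pl

noncomputable section

namespace Vale.Agent.P283R.Iz

open Vale.Agent.P287D

variable {n : ℕ} {K : Type} [Field K] [Algebra ℂ K]

/-- the orders on a finite dimensional space are bounded -/
theorem bdd (V : Submodule ℂ K) [Module.Finite ℂ V] (Q : Pl K) :
    ∃ C : ℤ, ∀ u ∈ V, u ≠ 0 → Q.ord u ≤ C := by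
  let f : ℕ →o (Submodule ℂ V)ᵒᵈ :=
    ⟨fun m => OrderDual.toDual ((Q.sub (-(m : ℝ))).comap V.subtype), fun a b h u hu => by
      have hu' : (u : K) ∈ Q.sub (-(b : ℝ)) := hu
      show (u : K) ∈ Q.sub (-(a : ℝ))
      refine Or.imp_right (fun k => ?_) hu'
      have : (a : ℝ) ≤ b := by exact_mod_cast h
      linarith⟩
  obtain ⟨m, hm⟩ := IsArtinian.monotone_stabilizes f
  refine ⟨m, fun u hu u0 => by_contra fun c => ?_⟩
  have c' : (m : ℤ) < Q.ord u := not_le.1 c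
  have a : (⟨u, hu⟩ : V) ∈ OrderDual.ofDual (f m) := Or.inr (by
    have : ((m : ℤ) : ℝ) < Q.ord u := by exact_mod_cast c'
    show 0 ≤ (Q.ord u : ℝ) + -(m : ℝ)
    push_cast at this
    linarith)
  rw [hm ((Q.ord u).toNat + 1) (by omega)] at a
  have b : u ∈ Q.sub (-(((Q.ord u).toNat + 1 : ℕ) : ℝ)) := a
  rcases b with b | b
  · exact u0 b
  · have e : (((Q.ord u).toNat : ℤ) : ℝ) = Q.ord u := by rw [Int.toNat_of_nonneg (by omega)]
    push_cast at b e
    linarith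

/-- **STEP**, b-divisor form: `β` has the value one at `P`, `γ ≥ 0` vanishes at `P` and restricts
to a non-zero divisor -/
theorem stp0 (hK : FF K (n + 1)) {P : Pl K} {β γ : BD K} (hβ : β ∈ Car K) (hγ : γ ∈ Car K)
    (b1 : β P = 1) (g1 : γ P = 0) {Q : Pl P.κ} (hQ : 0 < res P γ Q) (i : ℤ) :
    ∃ C : ℝ, ∀ (g : K) (H : BD K) (k : ℝ), g ≠ 0 → H ∈ Car K → H P = 0 → res P H = 0 →
      P.ord g = i → 0 ≤ k → 0 ≤ dv g + H - (i : ℝ) • β → 0 ≤ dv g + H - (i : ℝ) • β - k • γ →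
      k ≤ C := by
  have hκ := Bm.ff_κ hK P
  haveI := Ba.fin_car hκ (β := -((i : ℝ) • res P β)) (neg_mem (Submodule.smul_mem _ _ (res_car hK P β)))
  obtain ⟨C, hC⟩ := bdd (H0 (-((i : ℝ) • res P β))) Q
  refine ⟨(C - i * res P β Q) / res P γ Q, fun g H k g0 hH h1 h2 e k0 a b => ?_⟩
  have c1 := add_mem (dv_mem_Car g) hH
  have c2 := Submodule.smul_mem _ (i : ℝ) hβ
  have c3 := Submodule.smul_mem _ k hγ
  have r1 : res P (dv g + H - (i : ℝ) • β) =
      dv (P.rd (g / P.t ^ P.ord g)) + -((i : ℝ) • res P β) := by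
    rw [res_sub hK P c1 c2, res'.add n K hK P _ (dv_mem_Car g) _ hH, res'.pri n K hK P g g0,
      h2, add_zero, res'.smul n K hK P _ _ hβ, sub_eq_add_neg]
  have v : (dv g + H - (i : ℝ) • β) P = 0 := by simp [dv, h1, b1, e]
  have a' := res'.nn n K hK P _ (sub_mem c1 c2) a v
  have b' := res'.nn n K hK P _ (sub_mem (sub_mem c1 c2) c3) b (by
    rw [Pi.sub_apply, v]; simp [g1]) Q
  rw [res_sub hK P (sub_mem c1 c2) c3, r1, res'.smul n K hK P _ _ hγ] at b'
  rw [r1] at a'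
  have t0 := zpow_ne_zero (P.ord g) P.t_ne
  have o : P.ord (g / P.t ^ P.ord g) = 0 := by rw [ord_div _ g0 t0, P.ord_t_zpow, sub_self]
  have u0 : P.rd (g / P.t ^ P.ord g) ≠ 0 := fun z => by
    simpa [g0, t0, o] using
      (Bm.rd_zero_iff P ((ord_nonneg_iff _ (div_ne_zero g0 t0)).1 o.ge)).1 z
  have := hC _ (mem_H0.2 (Or.inr a')) u0
  have t : ((Q.ord (P.rd (g / P.t ^ P.ord g)) : ℤ) : ℝ) ≤ C := by exact_mod_cast this
  simp only [Pi.zero_apply, Pi.sub_apply, Pi.add_apply, Pi.neg_apply, Pi.smul_apply, smul_eq_mul,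
    dv] at b'
  rw [le_div_iff₀ hQ]
  linarith

/-- elements of the ring generated by `w` are sections of the multiples of `mx w` -/
theorem sec_adj {w : Finset K} (h1 : (1 : K) ∈ w) {s : K} (hs : s ∈ Algebra.adjoin ℂ (w : Set K)) :
    ∃ c : ℕ, ∀ P : Pl K, s ∈ P.sub (c * mx w P) := by
  have nn : ∀ P : Pl K, (0 : ℝ) ≤ mx w P := fun P => by
    have := P.le_mz h1 one_ne_zero
    rw [ord_one, neg_zero] at this
    show (0 : ℝ) ≤ (P.mz w : ℤ)
    exact_mod_cast this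
  have up : ∀ {s : K} {c c' : ℕ} (P : Pl K), c ≤ c' → s ∈ P.sub (c * mx w P) →
      s ∈ P.sub (c' * mx w P) := fun {s c c'} P h k => Or.imp_right (fun z => z.trans (by
    have : (c : ℝ) ≤ c' := by exact_mod_cast h
    nlinarith [nn P])) k
  induction hs using Algebra.adjoin_induction with
  | mem x hx =>
    exact ⟨1, fun P => by
      simpa [mx] using P.span_le_sub w (Submodule.subset_span hx)⟩
  | algebraMap c => exact ⟨0, fun P => Or.inr (by simp [P.ord_const])⟩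
  | add x y _ _ a b =>
    obtain ⟨c, a⟩ := a
    obtain ⟨d, b⟩ := b
    exact ⟨c + d, fun P => add_mem (up P (by omega) (a P)) (up P (by omega) (b P))⟩
  | mul x y _ _ a b =>
    obtain ⟨c, a⟩ := a
    obtain ⟨d, b⟩ := b
    refine ⟨c + d, fun P => ?_⟩
    by_cases x0 : x = 0
    · exact Or.inl (by rw [x0, zero_mul])
    by_cases y0 : y = 0
    · exact Or.inl (by rw [y0, mul_zero])
    have a' := (a P).resolve_left x0
    have b' := (b P).resolve_left y0
    refine Or.inr ?_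
    rw [ord_mul _ x0 y0]
    push_cast
    linarith

theorem mx_zero {w : Finset K} (h1 : (1 : K) ∈ w) {P : Pl K} (h : ∀ f ∈ w, f ∈ P.ring) :
    P.mz w = 0 := by
  rw [P.mz_eq h1 one_ne_zero fun g hg _ => by
    rw [ord_one]; exact ord_nonneg_of_mem _ (h g hg), ord_one, neg_zero]

variable {S : Subalgebra ℂ K} {p : Ideal S} {P : Pl K}

/-- a system of functions on `Spec S` restricts to zero at a place centred at a closed point -/
theorem res_mx_zero (hK : FF K (n + 1)) (rs : ∀ a : S, ∃ c : ℂ, a - algebraMap ℂ S c ∈ p)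
    {w : Finset K} (h1 : (1 : K) ∈ w) (hw : ∀ f ∈ w, f ∈ S) (h : Cen S p P) :
    mx w P = 0 ∧ res P (mx w) = 0 := by
  classical
  have z := mx_zero h1 fun f hf => (h ⟨f, hw f hf⟩).1
  refine ⟨by simp [mx, z], ?_⟩
  rw [res'.sys n K hK]
  funext Q
  have : Q.mz (P.rs w) = 0 := mx_zero (Finset.mem_image.2 ⟨1, h1, by simp [z, Bm.rd_one]⟩)
    fun f hf => by
      obtain ⟨a, ha, rfl⟩ := Finset.mem_image.1 hf
      obtain ⟨c, hc⟩ := rs ⟨a, hw a ha⟩
      have e := ((h _).2).1 hc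
      have m := (h ⟨a, hw a ha⟩).1
      have e' : P.rd (a - algebraMap ℂ K c) = 0 := e
      have := Bm.rd_add P (sub_mem m (P.con c)) (P.con c)
      rw [sub_add_cancel, e', zero_add, Bm.rd_const] at this
      rw [z, zpow_zero, mul_one, this]
      exact Q.con c
  simp [mx, this]

theorem ord_lo (h : Cen S p P) {s t : S} (ht : t ∉ p) (s0 : (s : K) ≠ 0) :
    P.ord ((s : K) / t) = P.ord (s : K) := by
  have a := mt (h t).2.2 ht
  rw [Bm.rd_zero_iff P (h t).1, not_or, not_lt] at a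
  rw [ord_div _ s0 a.1, le_antisymm a.2 (ord_nonneg_of_mem _ (h t).1), sub_zero]

/-- **STEP**: two prime divisors of a smooth model which meet -/
theorem stp (hK : FF K (n + 1)) (rs : ∀ a : S, ∃ c : ℂ, a - algebraMap ℂ S c ∈ p)
    {A k : BD K} {T : Finset (Pl K)} {h : Pl K → BD K} (l : LS n A k T h) {w : Finset K}
    (h1 : (1 : K) ∈ w) (hw : Algebra.adjoin ℂ (w : Set K) = S) (hL : Dsc A (mx w))
    {D D' R : Pl K} (o : On n A D) (o' : On n A D') (c : Cen S p D) (c' : Cen S p D')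
    (r : 0 < h D R) (r' : 0 < h D' R) (j : ℤ) :
    ∃ C : ℤ, ∀ g ∈ Lo S p, g ≠ 0 → D.ord g ≤ j → D'.ord g ≤ C := by
  by_cases e : D' = D
  · exact ⟨j, fun g _ _ a => e ▸ a⟩
  have ws : ∀ f ∈ w, f ∈ S := fun f hf => hw ▸ Algebra.subset_adjoin hf
  obtain ⟨z1, z2⟩ := res_mx_zero hK rs h1 ws c
  obtain ⟨z3, -⟩ := res_mx_zero hK rs h1 ws c'
  have u := l.hull D o
  have u' := l.hull D' o'
  have g1 : h D' D = 0 := (u'.2 D o).trans (Pl.δ_ne (Ne.symm e))
  obtain ⟨Q, -, -, hQ⟩ := H.qz_on hK l.smp l.big o (l.cle o r (Dsc.refl l.smp))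
    fun z => r'.ne' (z ▸ g1)
  choose C hC using stp0 hK u.1.car u'.1.car ((u.2 D o).trans D.δ_self) g1
    ((hQ _ (l.nn o') u'.1 g1).2 r')
  obtain ⟨B, hB⟩ := ((finite_Icc (0 : ℤ) j).image C).bddAbove
  refine ⟨⌈B⌉, ?_⟩
  rintro _ ⟨s, t, ht, rfl⟩ g0 h5
  have s0 : (s : K) ≠ 0 := fun z => g0 (by rw [z, zero_div])
  rw [ord_lo c ht s0] at h5
  rw [ord_lo c' ht s0]
  obtain ⟨m, hm⟩ := sec_adj h1 (hw.symm ▸ s.2 : (s : K) ∈ Algebra.adjoin ℂ (w : Set K))
  have i0 := ord_nonneg_of_mem _ (c s).1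
  have k0 : (0 : ℝ) ≤ D'.ord (s : K) := by exact_mod_cast ord_nonneg_of_mem _ (c' s).1
  have key : ∀ k : ℝ, k ≤ D'.ord (s : K) → 0 ≤ dv (s : K) + (m : ℝ) • mx w -
      ((D.ord (s : K) : ℤ) : ℝ) • h D - k • h D' := fun k k2 => by
    refine l.hart _ ((((Ku.dsc_prn l.smp (dv_mem_Prn _)).add (hL.smul _)).sub (u.1.smul _)).sub
      (u'.1.smul _)) fun Y hY => ?_
    have a := (hm Y).resolve_left s0
    simp only [Pi.sub_apply, Pi.add_apply, Pi.smul_apply, smul_eq_mul, dv_apply, u.2 Y hY,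
      u'.2 Y hY]
    by_cases y : Y = D
    · subst y
      rw [z1, Y.δ_self, Pl.δ_ne (Ne.symm e)]
      simp
    by_cases y' : Y = D'
    · subst y'
      rw [z3, Y.δ_self, Pl.δ_ne e]
      simpa using k2
    · rw [Pl.δ_ne y, Pl.δ_ne y']
      simpa using a
  have := hC (D.ord (s : K)) s ((m : ℝ) • mx w) _ s0 (Submodule.smul_mem _ _ (mx_mem_Car w))
    (by simp [z1]) (by rw [res'.smul n K hK D _ _ (mx_mem_Car w), z2, smul_zero]) rfl k0
    (by simpa using key 0 k0) (key _ le_rfl)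
  have b := hB ⟨D.ord (s : K), ⟨i0, h5⟩, rfl⟩
  exact_mod_cast (this.trans b).trans (Int.le_ceil B)

/-- **STEP**, in the words of the block -/
theorem step [DecidableEq K] (hA : Aff (n + 1) S) (p : Ideal S)
    (rs : ∀ a : S, ∃ c : ℂ, a - algebraMap ℂ S c ∈ p)
    {A k : BD K} {T : Finset (Pl K)} {h : Pl K → BD K} (l : LS n A k T h) {u : Finset K}
    (hu : Algebra.adjoin ℂ (u : Set K) = S) (hL : Dsc A (mx (insert 1 u)))
    {D D' R : Pl K} (o : On n A D) (o' : On n A D') (c : Cen S p D) (c' : Cen S p D')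
    (r : 0 < h D R) (r' : 0 < h D' R) (j : ℤ) :
    ∃ C : ℤ, ∀ g ∈ Lo S p, g ≠ 0 → D.ord g ≤ j → D'.ord g ≤ C :=
  stp hA.ff rs l (Finset.mem_insert_self 1 u) (by
    rw [← hu, Finset.coe_insert]
    exact le_antisymm (Algebra.adjoin_le (insert_subset (one_mem _) Algebra.subset_adjoin))
      (Algebra.adjoin_mono (subset_insert _ _))) hL o o' c c' r r' j

end Vale.Agent.P283R.Iz
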